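import Vale.Agent.P142.Atom
import Vale.Agent.P142.Integrable

/-!
# P142: Brennan's integrability range for univalent maps of bounded boundary rotation
-/

open MeasureTheory Set Metric Filter
open scoped ENNReal NNReal Topology Real

noncomputable section

namespace Vale.Agent.Results.P142.BoundedRotation

open Vale.Agent.P142

theorem result (f : ℂ → ℂ) (hf : DifferentiableOn ℂ f (ball 0 1)) (hinj : InjOn f (ball 0 1))
    (hV : HasBoundedBoundaryRotation f) :
    ∀ t ∈ Ioo (-2 : ℝ) (2 / 3),
      ∫⁻ z in ball (0 : ℂ) 1, ENNReal.ofReal (‖deriv f z‖ ^ t) < ⊤ := by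
  intro t ht
  obtain ⟨P, N, hrep⟩ := exists_rep hf hV
  refine lintegral_lt_top (hf.deriv isOpen_ball).continuousOn (P : Measure Circ) (N : Measure Circ)
    hrep (hV.1 0 (by simp)) fun ζ₀ => ?_
  have h := abs_le.1 (atom_bound hf hinj hV.1 P N hrep ζ₀)
  rcases le_or_gt 0 t with h0 | h0
  · nlinarith [ht.2, h.1, mul_le_mul_of_nonneg_left h.1 h0]
  · nlinarith [ht.1, h.2, mul_le_mul_of_nonpos_left h.2 h0.le]

end Vale.Agent.Results.P142.BoundedRotation
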